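import Mathlib

namespace Vale.Agent.P359

open scoped Kronecker Matrix

/-- The raising operator `u ∂/∂v` of the spin `Q/2` representation `U_Q`, written in the
orthonormal basis `e_m = √(Q choose m) u^m v^(Q-m)`, `m = 0, …, Q`. -/
noncomputable def spinUp (Q : ℕ) : Matrix (Fin (Q + 1)) (Fin (Q + 1)) ℂ :=
  Matrix.of fun a b =>
    if (a : ℕ) = (b : ℕ) + 1 then ((Real.sqrt ((((b : ℕ) : ℝ) + 1) * ((Q : ℝ) - ((b : ℕ) : ℝ))) : ℝ) : ℂ)
    else 0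

/-- The operator `S_z = (u ∂/∂u - v ∂/∂v) / 2` in the same basis. -/
noncomputable def spinZ (Q : ℕ) : Matrix (Fin (Q + 1)) (Fin (Q + 1)) ℂ :=
  Matrix.diagonal fun a => ((a : ℕ) : ℂ) - (Q : ℂ) / 2

/-- `A ⊗ 1 + 1 ⊗ A` on `U_Q ⊗ U_Q`. -/
noncomputable def pairSum {Q : ℕ} (A : Matrix (Fin (Q + 1)) (Fin (Q + 1)) ℂ) :
    Matrix (Fin (Q + 1) × Fin (Q + 1)) (Fin (Q + 1) × Fin (Q + 1)) ℂ :=
  A ⊗ₖ (1 : Matrix (Fin (Q + 1)) (Fin (Q + 1)) ℂ) + (1 : Matrix (Fin (Q + 1)) (Fin (Q + 1)) ℂ) ⊗ₖ A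

/-- The total spin Casimir `S_z² + (S₊ S₋ + S₋ S₊) / 2` on `U_Q ⊗ U_Q`. -/
noncomputable def casimir (Q : ℕ) :
    Matrix (Fin (Q + 1) × Fin (Q + 1)) (Fin (Q + 1) × Fin (Q + 1)) ℂ :=
  pairSum (spinZ Q) * pairSum (spinZ Q) +
    (1 / 2 : ℂ) • (pairSum (spinUp Q) * pairSum (spinUp Q)ᴴ + pairSum (spinUp Q)ᴴ * pairSum (spinUp Q))

/-- The component of total spin `J = Q - 1` of `U_Q ⊗ U_Q`: the eigenspace of the Casimir
for the eigenvalue `J (J + 1)`. -/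
noncomputable def spinSector (Q : ℕ) :
    Submodule ℂ (EuclideanSpace ℂ (Fin (Q + 1) × Fin (Q + 1))) :=
  Module.End.eigenspace (Matrix.toEuclideanLin (casimir Q)) (((Q : ℂ) - 1) * (Q : ℂ))

/-- The orthogonal projection onto total spin `Q - 1`, acting on tensor factors `i` and `j`
of `U_Q^{⊗ N}`. -/
noncomputable def pairProj {N Q : ℕ} (i j : Fin N)
    (ψ : EuclideanSpace ℂ (Fin N → Fin (Q + 1))) : EuclideanSpace ℂ (Fin N → Fin (Q + 1)) :=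
  WithLp.toLp 2 fun a =>
    (spinSector Q).starProjection
      (WithLp.toLp 2 fun bc => ψ (Function.update (Function.update a i bc.1) j bc.2)) (a i, a j)

/-- The Hamiltonian `H_{N,Q} = ∑_{i<j} P^{(1)}_{ij}`. -/
noncomputable def hamiltonian {N Q : ℕ}
    (ψ : EuclideanSpace ℂ (Fin N → Fin (Q + 1))) : EuclideanSpace ℂ (Fin N → Fin (Q + 1)) :=
  ∑ i : Fin N, ∑ j : Fin N with i < j, pairProj i j ψ

/-- Antisymmetric tensors, the fermionic space `⋀^N U_Q`. -/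
def IsFermionic {N Q : ℕ} (ψ : EuclideanSpace ℂ (Fin N → Fin (Q + 1))) : Prop :=
  ∀ (σ : Equiv.Perm (Fin N)) (a : Fin N → Fin (Q + 1)),
    ψ (a ∘ σ) = ((Equiv.Perm.sign σ : ℤ) : ℂ) * ψ a

/-- The Laughlin polynomial `∏_{i<j} (u_i v_j - u_j v_i)^3`, with `u_i = X (i, 0)` and
`v_i = X (i, 1)`. -/
noncomputable def laughlinPoly (N : ℕ) : MvPolynomial (Fin N × Fin 2) ℂ :=
  ∏ i : Fin N, ∏ j : Fin N with i < j,
    (MvPolynomial.X (i, 0) * MvPolynomial.X (j, 1) -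
      MvPolynomial.X (j, 0) * MvPolynomial.X (i, 1)) ^ 3

/-- The exponent vector of the monomial `∏_i u_i^(a i) v_i^(Q - a i)`. -/
noncomputable def expo {N Q : ℕ} (a : Fin N → Fin (Q + 1)) : Fin N × Fin 2 →₀ ℕ :=
  Finsupp.equivFunOnFinite.symm fun x => if x.2 = 0 then (a x.1 : ℕ) else Q - (a x.1 : ℕ)

/-- The coordinates of a polynomial of degree `Q` in each spinor `(u_i, v_i)` in the
orthonormal product basis `e_(a 1) ⊗ ⋯ ⊗ e_(a N)`. -/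
noncomputable def coords {N : ℕ} (Q : ℕ) (p : MvPolynomial (Fin N × Fin 2) ℂ) :
    EuclideanSpace ℂ (Fin N → Fin (Q + 1)) :=
  WithLp.toLp 2 fun a =>
    MvPolynomial.coeff (expo a) p / ((∏ i, Real.sqrt (Q.choose (a i)) : ℝ) : ℂ)

/-- The orthogonal projection onto the span of the Laughlin vector at flux `Q = 3 (N - 1)`. -/
noncomputable def laughlinProj (N : ℕ)
    (ψ : EuclideanSpace ℂ (Fin N → Fin (3 * (N - 1) + 1))) :
    EuclideanSpace ℂ (Fin N → Fin (3 * (N - 1) + 1)) :=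
  (Submodule.span ℂ {coords (3 * (N - 1)) (laughlinPoly N)}).starProjection ψ

end Vale.Agent.P359
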